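import Vale.Agent.P170.MathlibUsed

/-!
Random `k`-SAT with proper clauses, drawn independently and uniformly with replacement.
-/

namespace Vale.Agent.P170

open Filter Topology

/-- A proper `k`-clause on `n` Boolean variables: a set of `k` literals `(variable, sign)`
on `k` distinct variables. -/
abbrev PClause (k n : ℕ) : Type :=
  {C : Finset (Fin n × Bool) // C.card = k ∧ (C.image Prod.fst).card = k}

/-- The sequence of clauses `F` is satisfiable: some assignment makes a literal of every
clause true. -/
def Satisfiable {k n m : ℕ} (F : Fin m → PClause k n) : Prop :=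
  ∃ a : Fin n → Bool, ∀ i, ∃ l ∈ (F i).1, a l.1 = l.2

open Classical in
/-- `P_{k,n}(m)`: the probability that `m` independent uniform proper `k`-clauses on `n`
variables are simultaneously satisfiable. -/
noncomputable def satProb (k n m : ℕ) : ℝ :=
  (Fintype.card {F : Fin m → PClause k n // Satisfiable F} : ℝ) /
    (Fintype.card (Fin m → PClause k n) : ℝ)

/-- `α` is a limiting threshold for random `k`-SAT. -/
def IsLimitingThreshold (k : ℕ) (α : ℝ) : Prop :=
  0 < α ∧
  (∀ c : ℝ, 0 ≤ c → c < α → Tendsto (fun n : ℕ => satProb k n ⌊c * n⌋₊) atTop (𝓝 1)) ∧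
  (∀ c : ℝ, α < c → Tendsto (fun n : ℕ => satProb k n ⌊c * n⌋₊) atTop (𝓝 0))

end Vale.Agent.P170
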